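import Vale.Agent.Lib.P139.Gaussian

namespace Vale.Agent.Results.P139.GaussianDataFullSupport

open Vale.Agent.Lib.P139 MeasureTheory ProbabilityTheory

/-- Let `α > s + d/2` and let `g_n = X_n + i Y_n`, `n ∈ ℤ^d`, be independent standard complex
Gaussians (all `X_n`, `Y_n` independent real centred Gaussians of variance `1/2`). Then the random
datum `u₀^ω = Σ_n g_n ⟨n⟩^(-α) e^(i n·x)` has full support in `H^s(𝕋^d)`: for every `v ∈ H^s`
(Fourier coefficients `v n`) and every `ε > 0`, with positive probability `u₀^ω ∈ H^s` and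
`‖u₀^ω - v‖_{H^s} < ε`. -/
theorem result (d : ℕ) (s α : ℝ) (hα : s + (d : ℝ) / 2 < α)
    {Ω : Type*} [MeasurableSpace Ω] (P : Measure Ω) [IsProbabilityMeasure P]
    (X Y : (Fin d → ℤ) → Ω → ℝ)
    (hXm : ∀ n, Measurable (X n)) (hYm : ∀ n, Measurable (Y n))
    (hX : ∀ n, P.map (X n) = gaussianReal 0 (1 / 2))
    (hY : ∀ n, P.map (Y n) = gaussianReal 0 (1 / 2))
    (hind : iIndepFun (Sum.elim X Y) P)
    (v : (Fin d → ℤ) → ℂ) (hv : Summable (fun n => bracket n ^ (2 * s) * ‖v n‖ ^ 2))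
    (ε : ℝ) (hε : 0 < ε) :
    0 < P {ω | Summable (fun n => bracket n ^ (2 * s) *
          ‖((X n ω : ℂ) + (Y n ω : ℂ) * Complex.I) * ((bracket n ^ (-α) : ℝ) : ℂ) - v n‖ ^ 2) ∧
      ∑' n, bracket n ^ (2 * s) *
          ‖((X n ω : ℂ) + (Y n ω : ℂ) * Complex.I) * ((bracket n ^ (-α) : ℝ) : ℂ) - v n‖ ^ 2
        < ε ^ 2} :=
  gaussian_series_full_support d s α hα P X Y hXm hYm hX hY hind v hv ε hε

end Vale.Agent.Results.P139.GaussianDataFullSupport
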